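import Vale.Agent.P227.M.Defs

/-! P254, static method (captain helper625): the static profile and the statement of block S2. -/

open MeasureTheory

namespace Vale.Agent.P254.St625

open Vale.Agent.P227.M

/-- positive root of `b y² + y = 2` -/
noncomputable def yy (b : ℝ) : ℝ := (Real.sqrt (1 + 8 * b) - 1) / (2 * b)

/-- the static profile -/
noncomputable def kst (b : ℝ) : ℝ := 4 * (yy b - 1)

/-- output of block S2 (static third moment inequality), `Cov = 1`, centred, `D²V ≥ diag b`;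
no evenness -/
def StmtStatic : Prop := ∀ (n : ℕ) (V : E n → ℝ) (c C : ℝ), Reg V c C →
  (∀ i, Ex V (fun x => x i) = 0) → (∀ i j, Ex V (fun x => x i * x j) = if i = j then 1 else 0) →
  ∀ b : Fin n → ℝ, (∀ i, 0 < b i ∧ b i < 1) → (∀ x v, ∑ i, b i * v i ^ 2 ≤ qf (hess V x) v) →
  ∀ r : Fin n → ℝ, (∀ i, 0 < r i) →
    ∑ i, ∑ j, r i * r j * ∑ k, (Ex V (fun x => x i * x j * x k)) ^ 2 ≤ ∑ i, r i ^ 2 * kst (b i)

end Vale.Agent.P254.St625
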