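import Vale.Agent.P254.L.ZBd
import Vale.Agent.P254.Z546.Contact

/-!
P254, static method: the Z-frame with a loss `δ` per dimension (copy of `L/ZBd`, `Z546` with a
function `w` that is only `≥ -δ`).
-/

namespace Vale.Agent.P254.St625

open Matrix Filter Topology Set Polynomial Asymptotics
open Vale.Agent.P254.L Vale.Agent.P254.S526

variable {n : ℕ}

/-- one-variable data of the static method; `k` = the static profile -/
structure WP (δ : ℝ) (k : ℝ → ℝ) where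
  w : ℝ → ℝ
  w1 : ℝ → ℝ
  w2 : ℝ → ℝ
  d1 : ∀ x ∈ Ioo (0 : ℝ) 1, HasDerivAt w (w1 x) x
  d2 : ∀ x ∈ Ioo (0 : ℝ) 1, HasDerivAt w1 (w2 x) x
  /-- `c k ≤ w' (1 - b)`, `c = 1/4 - b² w''/2` -/
  ode : ∀ x ∈ Ioo (0 : ℝ) 1, (1 / 4 - x ^ 2 * w2 x / 2) * k x ≤ w1 x * (1 - x)
  c_pos : ∀ x ∈ Ioo (0 : ℝ) 1, 0 < 1 / 4 - x ^ 2 * w2 x / 2
  w_ge : ∀ x ∈ Ioo (0 : ℝ) 1, -δ ≤ w x
  w_le : ∀ x ∈ Ioo (0 : ℝ) 1, w x ≤ 1 / 2 * Real.log (2 * Real.pi * Real.exp 1) - 1
  cij : ∀ x ∈ Ioo (0 : ℝ) 1, ∀ y ∈ Ioo (0 : ℝ) 1,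
    (1 / 4 - x * y * dd1 w1 w2 x y / 2)
      ≤ Real.sqrt (1 / 4 - x ^ 2 * w2 x / 2) * Real.sqrt (1 / 4 - y ^ 2 * w2 y / 2)

/-- the static inequality for `(A, B, T)`, in frames: `L A Lᵀ = 1`, `B = Lᵀ diag β L` -/
def StatIneq (k : ℝ → ℝ) (A B : Mat n) (T : Ten n) : Prop :=
  ∀ (L : Mat n) (β : Vec n), IsUnit L → L * A * Lᵀ = 1 → B = Lᵀ * Matrix.diagonal β * L →
    (∀ i, β i ∈ Ioo (0 : ℝ) 1) → ∀ r : Vec n, (∀ i, 0 < r i) →
      ∑ i, ∑ j, r i * r j * ∑ a, frT L T i j a ^ 2 ≤ ∑ i, r i ^ 2 * k (β i)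

/-! ### the function to be minimised -/

/-- `w - ε √(1-x) + ½ log x` -/
noncomputable def ft {δ : ℝ} {k : ℝ → ℝ} (W : WP δ k) (ε x : ℝ) : ℝ :=
  W.w x - ε * Real.sqrt (1 - x) + 1 / 2 * Real.log x

noncomputable def GG {δ : ℝ} {k : ℝ → ℝ} {D : TiltData n} (E : EntData D) (W : WP δ k) (ε : ℝ)
    (B : Mat n) (c : Vec n) : ℝ :=
  E.Ent B c + 1 / 2 * Real.log B.det - n - Phi (ft W ε) (D.A B c) B

section
variable {δ : ℝ} {k : ℝ → ℝ} {D : TiltData n} (E : EntData D) (W : WP δ k) {ε : ℝ}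

theorem GG_eq {B : Mat n} (hB : B.PosDef) (c : Vec n) {L : Mat n} {β : Vec n}
    (h : Fr (D.A B c) B L β) :
    GG E W ε B c = E.Ent B c - 1 / 2 * Real.log (D.A B c).det - n - ∑ i, W.w (β i)
      + ε * ∑ i, Real.sqrt (1 - β i) := by
  have hβ : ∀ i, β i ∈ Ioo (0 : ℝ) 1 := h.beta_mem hB c
  unfold GG
  rw [Phi_eq h]
  unfold ft
  rw [Finset.sum_add_distrib, Finset.sum_sub_distrib, ← Finset.mul_sum, ← Finset.mul_sum]
  have hAp : 0 < (D.A B c).det := (D.posA B hB.posSemidef c).det_pos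
  have h1 : B.det * (D.A B c).det = ∏ i, β i := by
    have e1 := h.det_A
    rw [h.det_B]
    calc L.det ^ 2 * (∏ i, β i) * (D.A B c).det
        = (L.det ^ 2 * (D.A B c).det) * ∏ i, β i := by ring
      _ = _ := by rw [e1, one_mul]
  have h2 : Real.log B.det + Real.log (D.A B c).det = ∑ i, Real.log (β i) := by
    rw [← Real.log_mul hB.det_pos.ne' hAp.ne', h1, Real.log_prod]
    exact fun i _ => (hβ i).1.ne'
  rw [← h2]
  ring

theorem GG_lower {B : Mat n} (hB : B.PosDef) (c : Vec n) (hε : 0 ≤ ε) :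
    - (1 / 2 * Real.log (B + D.M • (1 : Mat n)).det) - 1 / 2 * Real.log (D.A B c).det
      ≤ GG E W ε B c := by
  obtain ⟨L, β, h⟩ := exists_Fr (D.posA B hB.posSemidef c) hB.isHermitian
  have hβ : ∀ i, β i ∈ Ioo (0 : ℝ) 1 := h.beta_mem hB c
  rw [GG_eq E W hB c h]
  have h1 := E.lowE B hB.posSemidef c
  have h2 : ∑ i, W.w (β i) ≤ ∑ _i : Fin n, (1 / 2 * Real.log (2 * Real.pi * Real.exp 1) - 1) :=
    Finset.sum_le_sum fun i _ => W.w_le _ (hβ i)
  rw [Finset.sum_const, Finset.card_univ, Fintype.card_fin, nsmul_eq_mul] at h2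
  have h3 : 0 ≤ ε * ∑ i, Real.sqrt (1 - β i) :=
    mul_nonneg hε (Finset.sum_nonneg fun i _ => Real.sqrt_nonneg _)
  linarith

/-- the top boundary -/
theorem GG_top {B : Mat n} (hB : B.PosDef) (c : Vec n) (hε : 0 ≤ ε) {b : ℝ} (hb : 0 ≤ b)
    (h : (B - b • (1 : Mat n)).PosSemidef) :
    - ((n : ℝ) / 2 * Real.log ((b + D.M) / (b + D.m))) ≤ GG E W ε B c := by
  refine le_trans ?_ (GG_lower E W hB c hε)
  have hm := D.hm
  have hM := D.hM
  have hBm : (B + D.m • (1 : Mat n)).PosDef := by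
    rw [add_comm]; exact (Matrix.PosDef.one.smul hm).add_posSemidef hB.posSemidef
  have hBM : (B + D.M • (1 : Mat n)).PosDef := by
    rw [add_comm]; exact (Matrix.PosDef.one.smul (hm.trans_le hM)).add_posSemidef hB.posSemidef
  have h1 := det_ratio hm hM hb h
  have hA := D.posA B hB.posSemidef c
  have h2 : (B + D.m • (1 : Mat n)).det ≤ ((D.A B c)⁻¹).det :=
    det_mono hA.inv hBm (D.up B hB.posSemidef c)
  rw [Matrix.det_nonsing_inv, Ring.inverse_eq_inv'] at h2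
  have hr : 0 < (b + D.M) / (b + D.m) := div_pos (by linarith) (by linarith)
  have h3 : Real.log (B + D.M • (1 : Mat n)).det
      ≤ n * Real.log ((b + D.M) / (b + D.m)) + Real.log (B + D.m • (1 : Mat n)).det := by
    have := Real.log_le_log hBM.det_pos h1
    rwa [Real.log_mul (pow_pos hr n).ne' hBm.det_pos.ne', Real.log_pow] at this
  have h4 : Real.log (B + D.m • (1 : Mat n)).det ≤ - Real.log (D.A B c).det := by
    have := Real.log_le_log hBm.det_pos h2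
    rwa [Real.log_inv] at this
  linarith

/-- the boundary `|c| = ρ` -/
theorem GG_side (hε : 0 ≤ ε) (b : ℝ) {η : ℝ} (hη : 0 < η) :
    ∃ ρ : ℝ, ∀ B : Mat n, B.PosDef → (b • (1 : Mat n) - B).PosSemidef →
      ∀ c : Vec n, ρ ≤ ‖c‖ → -η ≤ GG E W ε B c := by
  obtain ⟨ρ, hρ⟩ := E.vA b (2 * η) (by positivity)
  refine ⟨ρ, fun B hB hb c hc => ?_⟩
  have h1 := hρ B hB.posSemidef hb c hc
  have h2 := GG_lower E W hB c hε
  linarith

theorem GG_cont : ContinuousOn (fun p : Mat n × Vec n => GG E W ε p.1 p.2)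
    ({B | B.PosDef} ×ˢ univ) := by
  have hsub : ({B : Mat n | B.PosDef} ×ˢ (univ : Set (Vec n)))
      ⊆ ({B | B.PosSemidef} ×ˢ univ) := by
    rintro ⟨B, c⟩ ⟨h, -⟩
    exact ⟨Matrix.PosDef.posSemidef h, trivial⟩
  unfold GG
  refine (((E.cE.mono hsub).add (continuousOn_const.mul ?_)).sub continuousOn_const).sub ?_
  · refine ContinuousOn.log ?_ ?_
    · exact (continuous_fst.matrix_det).continuousOn
    · rintro ⟨B, c⟩ ⟨h, -⟩
      exact (Matrix.PosDef.det_pos h).ne'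
  · rintro ⟨B, c⟩ ⟨h, -⟩
    have hB : B.PosDef := h
    obtain ⟨L, β, hF⟩ := exists_Fr (D.posA B hB.posSemidef c) hB.isHermitian
    have hβ : ∀ i, β i ∈ Ioo (0 : ℝ) 1 := hF.beta_mem hB c
    have hA : Tendsto (fun p : Mat n × Vec n => D.A p.1 p.2)
        (𝓝[({B | B.PosDef} ×ˢ univ)] (B, c)) (𝓝 (D.A B c)) := by
      refine tendsto_pi_nhds.2 fun i => tendsto_pi_nhds.2 fun j => ?_
      exact ((D.cA i j).mono hsub) (B, c) ⟨h, trivial⟩
    have hBt : Tendsto (fun p : Mat n × Vec n => p.1)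
        (𝓝[({B | B.PosDef} ×ˢ univ)] (B, c)) (𝓝 B) :=
      (continuous_fst.tendsto (B, c)).mono_left nhdsWithin_le_nhds
    refine Phi_tendsto hF hA hBt (f := ft W ε) (fun i => ?_) ?_
    · unfold ft
      have h1 := (W.d1 _ (hβ i)).continuousAt
      have h2 : ContinuousAt (fun x : ℝ => Real.sqrt (1 - x)) (β i) :=
        (continuous_const.sub continuous_id).sqrt.continuousAt
      have h3 : ContinuousAt Real.log (β i) := Real.continuousAt_log (hβ i).1.ne'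
      exact (h1.sub (continuousAt_const.mul h2)).add (continuousAt_const.mul h3)
    · filter_upwards [self_mem_nhdsWithin] with p hp
      have hp1 : p.1.PosDef := hp.1
      exact exists_Fr (D.posA p.1 hp1.posSemidef p.2) hp1.isHermitian

end

/-! ### the minimum -/

section
variable {δ : ℝ} {k : ℝ → ℝ} {D : TiltData n} (E : EntData D) (W : WP δ k)

/-- **Existence of a good minimum point.** -/
theorem exists_min {ε η q0 Λ : ℝ} (hε : 0 ≤ ε) (hη : 0 < η) (hq0 : 0 < q0) (hΛ : q0 ≤ Λ)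
    {B0 : Mat n} {c0 : Vec n} (hB0 : B0.PosDef) (h : GG E W ε B0 c0 < -η) :
    ∃ (B : Mat n) (c : Vec n), B.PosDef ∧ GG E W ε B c < -η ∧
      (∀ e : Vec n, ∀ᶠ t in 𝓝 (0 : ℝ), GG E W ε B c ≤ GG E W ε B (c + t • e)) ∧
      (∀ Q : Mat n, (Q - q0 • (D.A B c)⁻¹).PosSemidef → (Λ • (D.A B c)⁻¹ - Q).PosSemidef →
        ∀ᶠ t in 𝓝[≥] (0 : ℝ),
          GG E W ε B c ≤ GG E W ε (B + t • Q) (c + t • (Q *ᵥ D.mu B c))) := by
  have hm := D.hm
  have hMm := D.hM
  have hΛ0 : 0 < Λ := hq0.trans_le hΛ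
  obtain ⟨b, hb0, hb⟩ := log_ratio_small n (M := D.M) hm hη
  obtain ⟨M', hM0, hM'⟩ := exists_smul_ge (B0 + D.M • (1 : Mat n)) (by
    rw [Matrix.transpose_add, (psd_iff.1 hB0.posSemidef).1, Matrix.transpose_smul,
      Matrix.transpose_one])
  set a : ℝ := q0 * D.m with ha
  have ha0 : 0 < a := mul_pos hq0 hm
  set S : ℝ := b / a with hS
  have hS0 : 0 < S := div_pos hb0 ha0
  obtain ⟨R, hR, -⟩ := Dom_compact (ρ := 0) hB0 (a := a) (M' := M') (Λ := Λ) (S := S) ha0.le hM0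
    hΛ0.le
  obtain ⟨ρ1, hρ1⟩ := GG_side E W hε R hη
  set ρ : ℝ := max ρ1 (‖c0‖ + 1) with hρ
  obtain ⟨R', hR', hK⟩ := Dom_compact (ρ := ρ) hB0 (a := a) (M' := M') (Λ := Λ) (S := S) ha0.le hM0
    hΛ0.le
  have hne : ((0 : ℝ), B0, c0) ∈ Dom B0 a M' Λ S ρ := by
    refine ⟨⟨le_rfl, hS0.le⟩, ?_, ?_, ?_⟩
    · simpa using Matrix.PosSemidef.zero
    · simpa using Matrix.PosSemidef.zero
    · exact (by linarith : ‖c0‖ ≤ ‖c0‖ + 1).trans (le_max_right _ _)
  have hcont : ContinuousOn (fun p : ℝ × Mat n × Vec n => GG E W ε p.2.1 p.2.2)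
      (Dom B0 a M' Λ S ρ) := by
    refine (GG_cont E W (ε := ε)).comp continuous_snd.continuousOn ?_
    intro p hp
    exact ⟨Dom_B_mem hB0 ha0.le hp, trivial⟩
  obtain ⟨⟨s, B, c⟩, hmem, hmin⟩ := hK.exists_isMinOn ⟨_, hne⟩ hcont
  have hB : B.PosDef := Dom_B_mem hB0 ha0.le hmem
  have hmin' : ∀ p ∈ Dom B0 a M' Λ S ρ, GG E W ε B c ≤ GG E W ε p.2.1 p.2.2 := fun p hp =>
    hmin hp
  have hlt : GG E W ε B c < -η := (hmin' _ hne).trans_lt h
  have hs : s < S := by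
    rcases hmem.1.2.lt_or_eq with h1 | h1
    · exact h1
    · exfalso
      simp only at h1
      have h2 : (B - b • (1 : Mat n)).PosSemidef := by
        have h3 := hmem.2.1.add hB0.posSemidef
        refine cast (congrArg Matrix.PosSemidef ?_) h3
        simp only
        have : a * s = b := by rw [h1, hS]; field_simp
        rw [this]
        abel
      have h3 := GG_top E W hB c hε hb0.le h2
      linarith
  have hc : ‖c‖ < ρ := by
    rcases hmem.2.2.2.lt_or_eq with h1 | h1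
    · exact h1
    · exfalso
      simp only at h1
      have h2 : (R • (1 : Mat n) - B).PosSemidef := by
        refine hR (s, B, 0) ⟨hmem.1, hmem.2.1, hmem.2.2.1, ?_⟩
        simp
      have h3 := hρ1 B hB h2 c (by rw [h1]; exact le_max_left _ _)
      linarith
  refine ⟨B, c, hB, hlt, ?_, ?_⟩
  · intro e
    have h1 : Tendsto (fun t : ℝ => ‖c + t • e‖) (𝓝 0) (𝓝 ‖c + (0 : ℝ) • e‖) := by
      apply Continuous.tendsto
      fun_prop
    rw [zero_smul, add_zero] at h1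
    filter_upwards [h1.eventually (gt_mem_nhds hc)] with t ht
    exact hmin' (s, B, c + t • e) ⟨hmem.1, hmem.2.1, hmem.2.2.1, ht.le⟩
  · intro Q hQ1 hQ2
    have h1 : Tendsto (fun t : ℝ => ‖c + t • (Q *ᵥ D.mu B c)‖) (𝓝[≥] 0)
        (𝓝 ‖c + (0 : ℝ) • (Q *ᵥ D.mu B c)‖) := by
      refine Tendsto.mono_left ?_ nhdsWithin_le_nhds
      apply Continuous.tendsto
      fun_prop
    rw [zero_smul, add_zero] at h1
    have h2 : ∀ᶠ t in 𝓝[≥] (0 : ℝ), t < S - s :=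
      nhdsWithin_le_nhds (gt_mem_nhds (by linarith))
    filter_upwards [h1.eventually (gt_mem_nhds hc), h2, self_mem_nhdsWithin] with t ht h2 h3
    exact hmin' _ (Dom_step hB0 hq0.le hΛ0.le hM0 hM' hmem hQ1 hQ2 h3 (by linarith) ht.le)

/-- passage to the limit -/
theorem ent_of_GG {B : Mat n} (hB : B.PosDef) (c : Vec n)
    (h : ∀ ε : ℝ, 0 < ε → ∀ η : ℝ, 0 < η → -η ≤ GG E W ε B c) :
    (n : ℝ) + 1 / 2 * Real.log (D.A B c).det ≤ E.Ent B c + δ * n := by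
  obtain ⟨L, β, hF⟩ := exists_Fr (D.posA B hB.posSemidef c) hB.isHermitian
  have hβ : ∀ i, β i ∈ Ioo (0 : ℝ) 1 := hF.beta_mem hB c
  have hw : -(δ * n) ≤ ∑ i, W.w (β i) := by
    have : ∑ _i : Fin n, (-δ) ≤ ∑ i, W.w (β i) :=
      Finset.sum_le_sum fun i _ => W.w_ge _ (hβ i)
    rw [Finset.sum_const, Finset.card_univ, Fintype.card_fin, nsmul_eq_mul] at this
    linarith
  have hs : ∑ i, Real.sqrt (1 - β i) ≤ n := by
    have : ∑ i, Real.sqrt (1 - β i) ≤ ∑ _i : Fin n, (1 : ℝ) := by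
      refine Finset.sum_le_sum fun i _ => ?_
      rw [Real.sqrt_le_one]
      linarith [(hβ i).1]
    simpa using this
  refine le_of_forall_pos_le_add fun κ hκ => ?_
  have h1 := h (κ / (2 * (n + 1))) (by positivity) (κ / 2) (by positivity)
  rw [GG_eq E W hB c hF] at h1
  have h2 : κ / (2 * (n + 1)) * ∑ i, Real.sqrt (1 - β i) ≤ κ / 2 := by
    calc κ / (2 * (n + 1)) * ∑ i, Real.sqrt (1 - β i) ≤ κ / (2 * (n + 1)) * n :=
          mul_le_mul_of_nonneg_left hs (by positivity)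
      _ ≤ κ / (2 * (n + 1)) * (n + 1) := by
          refine mul_le_mul_of_nonneg_left (by linarith) (by positivity)
      _ = κ / 2 := by field_simp
  linarith

end

end Vale.Agent.P254.St625
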