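import Vale.Agent.P254.St625.Def0
import Vale.Agent.P254.St625.Z1

/-! P254, static method, block S3w: the one-variable data for the static profile, `δ = 19/100`. -/

namespace Vale.Agent.P254.St625

open Set Vale.Agent.P254.L

namespace W833

noncomputable def w (x : ℝ) : ℝ := 29 / 100 * x + 71 / 325 * Real.log (1 + 13 / 4 * x) - 19 / 100

noncomputable def w1 (x : ℝ) : ℝ := 29 / 100 + 71 / 100 / (1 + 13 / 4 * x)

noncomputable def w2 (x : ℝ) : ℝ := -(923 / 400) / (1 + 13 / 4 * x) ^ 2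

theorem hd1 {x : ℝ} (hx : 0 < x) : HasDerivAt w (w1 x) x := by
  have hp : (1 + 13 / 4 * x) ≠ 0 := by positivity
  have h1 : HasDerivAt (fun x : ℝ => 1 + 13 / 4 * x) (13 / 4) x := by
    have := ((hasDerivAt_id x).const_mul (13 / 4 : ℝ)).const_add 1
    simpa using this
  have h2 := (((hasDerivAt_id x).const_mul (29 / 100 : ℝ)).add
    ((h1.log hp).const_mul (71 / 325 : ℝ))).sub_const (19 / 100)
  refine h2.congr_deriv ?_
  unfold w1
  ring

theorem hd2 {x : ℝ} (hx : 0 < x) : HasDerivAt w1 (w2 x) x := by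
  have hp : (1 + 13 / 4 * x) ≠ 0 := by positivity
  have h1 : HasDerivAt (fun x : ℝ => 1 + 13 / 4 * x) (13 / 4) x := by
    have := ((hasDerivAt_id x).const_mul (13 / 4 : ℝ)).const_add 1
    simpa using this
  have h2 := ((hasDerivAt_const x (71 / 100 : ℝ)).div h1 hp).const_add (29 / 100)
  refine h2.congr_deriv ?_
  unfold w2
  ring

theorem c_eq {x : ℝ} : 1 / 4 - x ^ 2 * w2 x / 2 = 1 / 4 + 923 / 800 * (x / (1 + 13 / 4 * x)) ^ 2 := by
  unfold w2
  rw [div_pow]
  ring

theorem dd1_eq {x y : ℝ} (hx : 0 < x) (hy : 0 < y) :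
    dd1 w1 w2 x y = -(923 / 400) / ((1 + 13 / 4 * x) * (1 + 13 / 4 * y)) := by
  have hpx : (1 + 13 / 4 * x) ≠ 0 := by positivity
  have hpy : (1 + 13 / 4 * y) ≠ 0 := by positivity
  unfold dd1
  split_ifs with h
  · subst h
    unfold w2
    rw [pow_two]
  · have h' : x - y ≠ 0 := sub_ne_zero.2 h
    unfold w1
    field_simp
    ring

theorem poly {t : ℝ} (h0 : 0 ≤ t) :
    0 ≤ t * (277 / 100 - 3443 / 800 * t - 1833 / 320 * t ^ 2 + 8957 / 1600 * t ^ 3 +
      4901 / 320 * t ^ 4 + 4901 / 1600 * t ^ 5) := by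
  refine mul_nonneg h0 ?_
  have h5 : 0 ≤ t ^ 5 := by positivity
  nlinarith [sq_nonneg (t ^ 2 + 8957 / 49010 * t - 3 / 10), sq_nonneg (t - 4 / 9)]

theorem ode_aux {t : ℝ} (h0 : 0 < t) (h1 : t < 1) :
    (1 / 4 + 923 / 800 * (((t + t ^ 2) / 2) / (1 + 13 / 4 * ((t + t ^ 2) / 2))) ^ 2) *
      (4 * ((1 - t) / (1 + t))) ≤
    (29 / 100 + 71 / 100 / (1 + 13 / 4 * ((t + t ^ 2) / 2))) * (1 - (t + t ^ 2) / 2) := by
  have hq : 0 < 1 + 13 / 4 * ((t + t ^ 2) / 2) := by positivity
  have ht1 : 0 < 1 + t := by linarith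
  have hP := poly h0.le
  have hP2 : 0 ≤ (1 - t) * (t * (277 / 100 - 3443 / 800 * t - 1833 / 320 * t ^ 2 +
      8957 / 1600 * t ^ 3 + 4901 / 320 * t ^ 4 + 4901 / 1600 * t ^ 5)) :=
    mul_nonneg (by linarith) hP
  rw [← sub_nonneg]
  have e : (29 / 100 + 71 / 100 / (1 + 13 / 4 * ((t + t ^ 2) / 2))) * (1 - (t + t ^ 2) / 2) -
      (1 / 4 + 923 / 800 * (((t + t ^ 2) / 2) / (1 + 13 / 4 * ((t + t ^ 2) / 2))) ^ 2) *
      (4 * ((1 - t) / (1 + t))) = ((1 - t) * (t * (277 / 100 - 3443 / 800 * t -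
      1833 / 320 * t ^ 2 + 8957 / 1600 * t ^ 3 + 4901 / 320 * t ^ 4 + 4901 / 1600 * t ^ 5))) /
      (8 * (1 + t) * (1 + 13 / 4 * ((t + t ^ 2) / 2)) ^ 2) := by
    field_simp
    ring
  rw [e]
  positivity

theorem log_bound : (1 : ℝ) / 10 + 71 / 325 * Real.log (17 / 4) ≤
    1 / 2 * Real.log (2 * Real.pi * Real.exp 1) - 1 := by
  have hpi := Real.pi_gt_d6
  have h1 : Real.log (17 / 4) ≤ 2 * Real.log 2 + 1 / 16 := by
    have e : (17 / 4 : ℝ) = 2 ^ 2 * (17 / 16) := by norm_num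
    rw [e, Real.log_mul (by norm_num) (by norm_num), Real.log_pow]
    have := Real.log_le_sub_one_of_pos (by norm_num : (0 : ℝ) < 17 / 16)
    push_cast
    linarith
  have h2 : 3 * Real.log 2 + Real.log (1 - 0.214602) ≤ Real.log (2 * Real.pi) := by
    have e : 3 * Real.log 2 + Real.log (1 - 0.214602) = Real.log (2 ^ 3 * (1 - 0.214602)) := by
      rw [Real.log_mul (by norm_num) (by norm_num), Real.log_pow]
      push_cast
      ring
    rw [e]
    refine Real.log_le_log (by norm_num) ?_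
    norm_num
    linarith
  have h3 := Real.abs_log_sub_add_sum_range_le (x := 0.214602) (by
    rw [abs_of_pos (by norm_num)]; norm_num) 3
  rw [abs_of_pos (by norm_num : (0 : ℝ) < 0.214602)] at h3
  have h4 := (abs_le.1 h3).1
  simp only [Finset.sum_range_succ, Finset.sum_range_zero] at h4
  have h5 := Real.log_two_lt_d9
  have h6 := Real.log_two_gt_d9
  rw [Real.log_mul (by positivity) (Real.exp_pos 1).ne', Real.log_exp]
  norm_num at h4
  linarith

noncomputable def wp : WP (19 / 100) kst where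
  w := w
  w1 := w1
  w2 := w2
  d1 := fun x hx => hd1 hx.1
  d2 := fun x hx => hd2 hx.1
  ode := by
    rintro x ⟨hx0, hx1⟩
    rw [c_eq]
    set s : ℝ := Real.sqrt (1 + 8 * x) with hs
    have hs2 : s ^ 2 = 1 + 8 * x := Real.sq_sqrt (by positivity)
    have hs0 : 0 ≤ s := Real.sqrt_nonneg _
    have hs1 : 1 < s := by nlinarith
    have hs3 : s < 3 := by nlinarith
    set t : ℝ := (s - 1) / 2 with ht
    have hst : s = 1 + 2 * t := by rw [ht]; ring
    have ht0 : 0 < t := by rw [ht]; linarith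
    have ht1 : t < 1 := by rw [ht]; linarith
    have hxt : x = (t + t ^ 2) / 2 := by
      have : 8 * x = s ^ 2 - 1 := by linarith
      rw [hst] at this
      nlinarith
    have hk : kst x = 4 * ((1 - t) / (1 + t)) := by
      unfold kst yy
      rw [← hs, hst, hxt]
      have : 0 < t + t ^ 2 := by positivity
      have h1 : 1 + t ≠ 0 := by positivity
      field_simp
      ring
    rw [hk, hxt]
    exact ode_aux ht0 ht1
  c_pos := by
    rintro x ⟨hx0, -⟩
    rw [c_eq]
    positivity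
  w_ge := by
    rintro x ⟨hx0, -⟩
    have : 0 ≤ Real.log (1 + 13 / 4 * x) := Real.log_nonneg (by linarith)
    unfold w
    linarith
  w_le := by
    rintro x ⟨hx0, hx1⟩
    have : Real.log (1 + 13 / 4 * x) ≤ Real.log (17 / 4) :=
      Real.log_le_log (by positivity) (by linarith)
    refine le_trans ?_ log_bound
    unfold w
    linarith
  cij := by
    rintro x ⟨hx0, -⟩ y ⟨hy0, -⟩
    rw [c_eq, c_eq, dd1_eq hx0 hy0]
    have hpx : (1 + 13 / 4 * x) ≠ 0 := by positivity
    have hpy : (1 + 13 / 4 * y) ≠ 0 := by positivity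
    set u : ℝ := x / (1 + 13 / 4 * x) with hu
    set v : ℝ := y / (1 + 13 / 4 * y) with hv
    have hu0 : 0 ≤ u := by positivity
    have hv0 : 0 ≤ v := by positivity
    have e : 1 / 4 - x * y * (-(923 / 400) / ((1 + 13 / 4 * x) * (1 + 13 / 4 * y))) / 2 =
        1 / 4 + 923 / 800 * (u * v) := by
      rw [hu, hv]
      field_simp
      ring
    rw [e, ← Real.sqrt_mul (by positivity)]
    refine Real.le_sqrt_of_sq_le ?_
    nlinarith [sq_nonneg (u - v)]

end W833

end Vale.Agent.P254.St625
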