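import Vale.Agent.P254.St625.Z2
import Vale.Agent.P254.St625.Def0

/-! P254, static method: the entropy inequality with loss `δ` per dimension. -/

namespace Vale.Agent.P254.St625

open Matrix Filter Topology Set
open Vale.Agent.P254.L
open Vale.Agent.P254.Z546 (e1 e2 dd1_e_nonneg)

variable {n : ℕ}

theorem e1_mul' {x : ℝ} (hx : x < 1) : e1 x * (1 - x) = Real.sqrt (1 - x) / 2 := by
  unfold e1
  have hs : 0 < Real.sqrt (1 - x) := Real.sqrt_pos.2 (by linarith)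
  have h2 : Real.sqrt (1 - x) * Real.sqrt (1 - x) = 1 - x := Real.mul_self_sqrt (by linarith)
  nth_rewrite 2 [← h2]
  field_simp

section
variable {δ : ℝ} {k : ℝ → ℝ} (W : WP δ k)

/-- `√c`, `c = 1/4 - x² w''/2` -/
noncomputable def rr (x : ℝ) : ℝ := Real.sqrt (1 / 4 - x ^ 2 * W.w2 x / 2)

theorem rr_pos {x : ℝ} (hx : x ∈ Ioo (0 : ℝ) 1) : 0 < rr W x := Real.sqrt_pos.2 (W.c_pos x hx)

theorem rr_sq {x : ℝ} (hx : x ∈ Ioo (0 : ℝ) 1) : rr W x ^ 2 = 1 / 4 - x ^ 2 * W.w2 x / 2 :=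
  Real.sq_sqrt (W.c_pos x hx).le

theorem sum_neg (hn : 0 < n) {ε : ℝ} (hε : 0 < ε) {β : Vec n}
    (hβ : ∀ i, β i ∈ Ioo (0 : ℝ) 1) {T : Ten n}
    (hP : ∑ i, ∑ j, rr W (β i) * rr W (β j) * ∑ a, T i j a ^ 2
      ≤ ∑ i, rr W (β i) ^ 2 * k (β i)) :
    ∑ a : Fin n, (1 : ℝ) * (∑ i, ∑ j, (1 / 2 * (1 / 2 - β i * β j * dd1 W.w1 W.w2 (β i) (β j)
        - ε * (β i * β j * dd1 e1 e2 (β i) (β j)))) * T i j a ^ 2
      - (W.w1 (β a) + ε * e1 (β a)) * (1 - β a)) < 0 := by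
  have h1 : ∀ a, (∑ i, ∑ j, (1 / 2 * (1 / 2
        - β i * β j * dd1 W.w1 W.w2 (β i) (β j)
        - ε * (β i * β j * dd1 e1 e2 (β i) (β j)))) * T i j a ^ 2)
      ≤ ∑ i, ∑ j, rr W (β i) * rr W (β j) * T i j a ^ 2 := by
    intro a
    refine Finset.sum_le_sum fun i _ => Finset.sum_le_sum fun j _ => ?_
    refine mul_le_mul_of_nonneg_right ?_ (sq_nonneg _)
    have h3 := W.cij _ (hβ i) _ (hβ j)
    have h4 : 0 ≤ ε * (β i * β j * dd1 e1 e2 (β i) (β j)) := by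
      have := dd1_e_nonneg (hβ i).2 (hβ j).2
      have h5 := (hβ i).1
      have h6 := (hβ j).1
      positivity
    unfold rr
    linarith
  have h2 : ∑ a, ∑ i, ∑ j, rr W (β i) * rr W (β j) * T i j a ^ 2
      ≤ ∑ a, W.w1 (β a) * (1 - β a) := by
    have e : ∑ a, ∑ i, ∑ j, rr W (β i) * rr W (β j) * T i j a ^ 2
        = ∑ i, ∑ j, rr W (β i) * rr W (β j) * ∑ a, T i j a ^ 2 := by
      rw [Finset.sum_comm]
      refine Finset.sum_congr rfl fun i _ => ?_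
      rw [Finset.sum_comm]
      refine Finset.sum_congr rfl fun j _ => ?_
      rw [Finset.mul_sum]
    rw [e]
    refine hP.trans (Finset.sum_le_sum fun i _ => ?_)
    rw [rr_sq W (hβ i)]
    exact W.ode _ (hβ i)
  have h3 : ∑ a : Fin n, (1 : ℝ) * (∑ i, ∑ j, (1 / 2 * (1 / 2
        - β i * β j * dd1 W.w1 W.w2 (β i) (β j)
        - ε * (β i * β j * dd1 e1 e2 (β i) (β j)))) * T i j a ^ 2
      - (W.w1 (β a) + ε * e1 (β a)) * (1 - β a))
      ≤ ∑ a, (W.w1 (β a) * (1 - β a) - (W.w1 (β a) + ε * e1 (β a)) * (1 - β a)) := by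
    rw [Finset.sum_sub_distrib]
    have h4 := (Finset.sum_le_sum fun a (_ : a ∈ Finset.univ) => h1 a).trans h2
    have e : ∑ a : Fin n, (1 : ℝ) * (∑ i, ∑ j, (1 / 2 * (1 / 2
        - β i * β j * dd1 W.w1 W.w2 (β i) (β j)
        - ε * (β i * β j * dd1 e1 e2 (β i) (β j)))) * T i j a ^ 2
      - (W.w1 (β a) + ε * e1 (β a)) * (1 - β a))
      = ∑ a, (∑ i, ∑ j, (1 / 2 * (1 / 2
        - β i * β j * dd1 W.w1 W.w2 (β i) (β j)
        - ε * (β i * β j * dd1 e1 e2 (β i) (β j)))) * T i j a ^ 2)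
        - ∑ a, (W.w1 (β a) + ε * e1 (β a)) * (1 - β a) := by
      rw [← Finset.sum_sub_distrib]
      exact Finset.sum_congr rfl fun a _ => by rw [one_mul]
    rw [e]
    linarith
  refine h3.trans_lt ?_
  have : Nonempty (Fin n) := ⟨⟨0, hn⟩⟩
  refine Finset.sum_neg (fun a _ => ?_) Finset.univ_nonempty
  have h5 := e1_mul' (hβ a).2
  have h6 : 0 < Real.sqrt (1 - β a) := Real.sqrt_pos.2 (by linarith [(hβ a).2])
  have h7 : (W.w1 (β a) + ε * e1 (β a)) * (1 - β a)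
      = W.w1 (β a) * (1 - β a) + ε * (Real.sqrt (1 - β a) / 2) := by
    rw [← h5]; ring
  rw [h7]
  have : 0 < ε * (Real.sqrt (1 - β a) / 2) := by positivity
  linarith

end

/-- the entropy inequality with loss, for one tilt -/
theorem ent_le {δ : ℝ} {k : ℝ → ℝ} (W : WP δ k) {D : TiltData n} (E : EntData D)
    (hP : ∀ B : Mat n, B.PosDef → ∀ c : Vec n, StatIneq k (D.A B c) B (D.T B c))
    {B : Mat n} (hB : B.PosDef) (c : Vec n) :
    (n : ℝ) + 1 / 2 * Real.log (D.A B c).det ≤ E.Ent B c + δ * n := by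
  rcases Nat.eq_zero_or_pos n with hn | hn
  · subst hn
    have h := E.lowE B hB.posSemidef c
    simpa using h
  refine ent_of_GG E W hB c fun ε hε η hη => ?_
  by_contra hlt
  push Not at hlt
  obtain ⟨B', c', hB', -, hc', hf'⟩ :=
    exists_min E W hε.le hη (q0 := 1) (Λ := 1) one_pos le_rfl hB hlt
  obtain ⟨L, β, hF⟩ := exists_Fr (D.posA B' hB'.posSemidef c') hB'.isHermitian
  have hβ : ∀ i, β i ∈ Ioo (0 : ℝ) 1 := hF.beta_mem hB' c'
  have e0 : Lᵀ * Matrix.diagonal (fun _ => (1 : ℝ)) * L = (D.A B' c')⁻¹ := by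
    rw [Matrix.diagonal_one, Matrix.mul_one, hF.inv_A]
  have hf'' := hf' (Lᵀ * Matrix.diagonal (fun _ => (1 : ℝ)) * L) (by
      rw [e0, one_smul, sub_self]; exact Matrix.PosSemidef.zero) (by
      rw [e0, one_smul, sub_self]; exact Matrix.PosSemidef.zero)
  have h1 := contact_ineq E W hB' hF (r := fun _ => (1 : ℝ)) (fun i => zero_le_one) hc' hf''
  have h2 : ∑ i, ∑ j, rr W (β i) * rr W (β j) * ∑ a, frT L (D.T B' c') i j a ^ 2
      ≤ ∑ i, rr W (β i) ^ 2 * k (β i) :=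
    hP B' hB' c' L β hF.isUnit hF.hA hF.hB hβ (fun i => rr W (β i)) fun i => rr_pos W (hβ i)
  exact absurd h1 (not_le.2 (sum_neg W hn hε hβ h2))

end Vale.Agent.P254.St625
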