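import Vale.Agent.P254.St625.Z3
import Vale.Agent.P254.Frame829.Inst
import Vale.Agent.P254.S4.Loss

/-! P254, static method: `StatIneq` for the nice measures gives the entropy inequality with loss
and the near-sharp slicing inequality. -/

open MeasureTheory Set Matrix

namespace Vale.Agent.P254.St625

open Vale.Agent.P254.L

/-- output of block S5: the static inequality for all tilts of the nice measures -/
def NiceStat (n : ℕ) : Prop :=
  ∀ (K : Set (Fin n → ℝ)), IsCompact K → StrictConvex ℝ K → (interior K).Nonempty →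
    ∀ ε m : ℝ, 0 < ε → 0 < m → ∀ (B : Matrix (Fin n) (Fin n) ℝ), B.PosDef → ∀ c : Fin n → ℝ,
      StatIneq kst (Fr.AF (R304.nice K ε m) B c) B (Fr.TF (R304.nice K ε m) B c)

theorem wK_eq_nice {n : ℕ} (K : Set (Fin n → ℝ)) (ε m : ℝ) : Fr.wK K ε m = R304.nice K ε m := by
  funext x
  unfold Fr.wK R304.nice Fr.gau R304.qq
  congr 1
  refine integral_congr_ae (Filter.Eventually.of_forall fun y => ?_)
  simp only
  congr 1
  ring

theorem niceFrL_of {δ : ℝ} (W : WP δ kst) {n : ℕ} (h : NiceStat n) : S4.NiceFrL δ n := by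
  intro K hK hs hi ε m hε hm B hB c
  have h1 := ent_le W (Fr.entData hK hs hi hε hm) (fun B hB c => by
    have h2 := h K hK hs hi ε m hε hm B hB c
    rw [← wK_eq_nice] at h2
    exact h2) hB c
  have h3 : Fr.AF (R304.nice K ε m) = Fr.AF (Fr.wK K ε m) := by rw [wK_eq_nice]
  have h4 : Fr.EntF (R304.nice K ε m) = Fr.EntF (Fr.wK K ε m) := by rw [wK_eq_nice]
  rw [h3, h4]
  exact h1

end Vale.Agent.P254.St625
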