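import Vale.Agent.P254.St625.Z3
import Vale.Agent.P254.Frame829.Inst
import Vale.Agent.P254.X.Loss

/-! P254, static method (helper589): block S6. From the output of block S5 and the one-variable data `WP`
to the isotropic constant of every convex body in every dimension. -/

open MeasureTheory Set Matrix Filter Topology

namespace Vale.Agent.P254.St625

open Vale.Agent.P254.L
open Vale.Agent.P254.R304 (nice)
open Vale.Agent.P254.X.Loss

/-- output of block S5: the static inequality, in frames, for all tilts of the nice measures -/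
def StmtFrameStat (k : ℝ → ℝ) : Prop :=
  ∀ (n : ℕ) (K : Set (Fin n → ℝ)), IsCompact K → StrictConvex ℝ K → (interior K).Nonempty →
    ∀ ε m : ℝ, 0 < ε → 0 < m → ∀ B : Mat n, B.PosDef → ∀ c : Vec n,
      StatIneq k (Fr.AF (Fr.wK K ε m) B c) B (Fr.TF (Fr.wK K ε m) B c)

theorem nice_eq_wK {n : ℕ} (K : Set (Fin n → ℝ)) (ε m : ℝ) : nice K ε m = Fr.wK K ε m := by
  funext x
  unfold R304.nice R304.qq Fr.wK Fr.gau
  congr 1
  refine integral_congr_ae (ae_of_all _ fun y => ?_)
  dsimp only
  congr 1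
  ring

theorem niceFrL_of {δ : ℝ} {k : ℝ → ℝ} (W : WP δ k) (h5 : StmtFrameStat k) (n : ℕ) :
    NiceFrL δ n := by
  intro K h1 h2 h3 ε m hε hm B hB c
  rw [nice_eq_wK]
  exact ent_le W (Fr.entData h1 h2 h3 hε hm)
    (fun B' hB' c' => h5 n K h1 h2 h3 ε m hε hm B' hB' c') hB c

/-- **the isotropic constant of every convex body**, with the loss `δ` -/
theorem isoConst_le_of {δ : ℝ} {k : ℝ → ℝ} (W : WP δ k) (h5 : StmtFrameStat k) {n : ℕ}
    (hn : 1 ≤ n) {K S : Set (Fin n → ℝ)} (hK : IsConvexBody K) (hS : IsSimplex S) :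
    isoConst K ≤ Real.exp (δ * ((n : ℝ) + 1) / n) * isoConst S :=
  isoConst_le_of_niceDDL hn (niceFrL_of W h5 (n + 1)).niceDDL hK hS

end Vale.Agent.P254.St625
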