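import Vale.Agent.P254.St625.Z1
import Vale.Agent.P254.St625.Def0

/-!
P254, static method, block S3w (helper683): the one-variable data `WP (19/100) kst`:
`w'(x) = 29/100 + (71/100)/(1 + 13x/4)`.
-/

namespace Vale.Agent.P254.St625

open Set Vale.Agent.P254.L

noncomputable section

namespace W683

def w (x : ℝ) : ℝ := 29 / 100 * x + 71 / 325 * Real.log (1 + 13 / 4 * x) - 19 / 100

def w1 (x : ℝ) : ℝ := 29 / 100 + 71 / 100 / (1 + 13 / 4 * x)

def w2 (x : ℝ) : ℝ := -(923 / 400) / (1 + 13 / 4 * x) ^ 2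

theorem X_pos {x : ℝ} (hx : 0 < x) : 0 < 1 + 13 / 4 * x := by positivity

theorem lin {x : ℝ} : HasDerivAt (fun x : ℝ => 1 + 13 / 4 * x) (13 / 4) x := by
  simpa using ((hasDerivAt_id x).const_mul (13 / 4 : ℝ)).const_add 1

theorem d1 {x : ℝ} (hx : 0 < x) : HasDerivAt w (w1 x) x := by
  have hX := X_pos hx
  have h1 := (lin (x := x)).log hX.ne'
  have h2 := ((hasDerivAt_id x).const_mul (29 / 100 : ℝ)).add (h1.const_mul (71 / 325 : ℝ))
  have h3 := h2.sub_const (19 / 100 : ℝ)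
  refine (h3.congr_deriv ?_).congr_of_eventuallyEq (Filter.Eventually.of_forall fun y => ?_)
  · unfold w1
    field_simp
    ring
  · simp only [w, Pi.add_apply, id]

theorem d2 {x : ℝ} (hx : 0 < x) : HasDerivAt w1 (w2 x) x := by
  have hX := X_pos hx
  have h1 := ((lin (x := x)).inv hX.ne').const_mul (71 / 100 : ℝ)
  have h2 := h1.const_add (29 / 100 : ℝ)
  refine (h2.congr_deriv ?_).congr_of_eventuallyEq (Filter.Eventually.of_forall fun y => ?_)
  · unfold w2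
    field_simp
    ring
  · simp only [w1, Pi.inv_apply, div_eq_mul_inv]

/-- `c(x) = 1/4 + (923/800) (x/X)²` -/
theorem c_eq {x : ℝ} (hx : 0 < x) :
    1 / 4 - x ^ 2 * w2 x / 2 = 1 / 4 + 923 / 800 * (x / (1 + 13 / 4 * x)) ^ 2 := by
  have hX := X_pos hx
  unfold w2
  rw [div_pow]
  ring

theorem poly_nonneg {t : ℝ} (h0 : 0 ≤ t) (h1 : t ≤ 1) :
    0 ≤ 277 / 400 - 3443 / 3200 * t - 1833 / 1280 * t ^ 2 + 8957 / 6400 * t ^ 3
      + 4901 / 1280 * t ^ 4 + 4901 / 6400 * t ^ 5 := by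
  have h2 : 0 ≤ 1 - t := by linarith
  have e : 277 / 400 - 3443 / 3200 * t - 1833 / 1280 * t ^ 2 + 8957 / 6400 * t ^ 3
      + 4901 / 1280 * t ^ 4 + 4901 / 6400 * t ^ 5 =
      277 / 400 * (1 - t) ^ 8 + 8 * (2857 / 5120) * (t * (1 - t) ^ 7)
      + 28 * (66729 / 179200) * (t ^ 2 * (1 - t) ^ 6) + 56 * (57553 / 358400) * (t ^ 3 * (1 - t) ^ 5)
      + 70 * (209 / 89600) * (t ^ 4 * (1 - t) ^ 4) + 56 * (2339 / 51200) * (t ^ 5 * (1 - t) ^ 3)
      + 28 * (46659 / 89600) * (t ^ 6 * (1 - t) ^ 2) + 8 * (22443 / 12800) * (t ^ 7 * (1 - t))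
      + 3343 / 800 * t ^ 8 := by ring
  rw [e]
  positivity

theorem ode {x : ℝ} (hx : x ∈ Ioo (0 : ℝ) 1) :
    (1 / 4 - x ^ 2 * w2 x / 2) * kst x ≤ w1 x * (1 - x) := by
  obtain ⟨hx0, hx1⟩ := hx
  set s : ℝ := Real.sqrt (1 + 8 * x) with hs
  have hs2 : s ^ 2 = 1 + 8 * x := Real.sq_sqrt (by positivity)
  have hs0 : 0 ≤ s := Real.sqrt_nonneg _
  have hs1 : 1 < s := by nlinarith
  have hs3 : s < 3 := by nlinarith
  obtain ⟨t, ht⟩ : ∃ t : ℝ, t = (s - 1) / 2 := ⟨_, rfl⟩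
  have hst : s = 1 + 2 * t := by rw [ht]; ring
  have ht0 : 0 < t := by rw [ht]; linarith
  have ht1 : t < 1 := by rw [ht]; linarith
  have hxt : x = (t + t ^ 2) / 2 := by
    rw [hst] at hs2
    linarith
  have hk : kst x = 4 * (1 - t) / (1 + t) := by
    rw [kst, yy, ← hs, hst, hxt]
    field_simp
    ring
  have hX : 0 < 1 + 13 / 4 * x := X_pos hx0
  have hP := poly_nonneg ht0.le ht1.le
  rw [hk, c_eq hx0, w1, ← sub_nonneg]
  have e : (29 / 100 + 71 / 100 / (1 + 13 / 4 * x)) * (1 - x) -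
      (1 / 4 + 923 / 800 * (x / (1 + 13 / 4 * x)) ^ 2) * (4 * (1 - t) / (1 + t)) =
      (1 - t) * (t * (277 / 400 - 3443 / 3200 * t - 1833 / 1280 * t ^ 2 + 8957 / 6400 * t ^ 3
        + 4901 / 1280 * t ^ 4 + 4901 / 6400 * t ^ 5)) /
        (2 * (1 + 13 / 4 * x) ^ 2 * (1 + t)) := by
    have ht2 : (1 + t) ≠ 0 := by positivity
    rw [eq_div_iff (by positivity)]
    have hX' := hX.ne'
    field_simp
    rw [hxt]
    ring
  rw [e]
  have : 0 ≤ 1 - t := by linarith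
  positivity

theorem c_pos {x : ℝ} (hx : 0 < x) : 0 < 1 / 4 - x ^ 2 * w2 x / 2 := by
  rw [c_eq hx]
  positivity

theorem dd_eq {x y : ℝ} (hx : 0 < x) (hy : 0 < y) :
    dd1 w1 w2 x y = -(923 / 400) / ((1 + 13 / 4 * x) * (1 + 13 / 4 * y)) := by
  have hX := (X_pos hx).ne'
  have hY := (X_pos hy).ne'
  unfold dd1
  split_ifs with h
  · subst h
    rw [w2]
    ring
  · have hxy : x - y ≠ 0 := sub_ne_zero.2 h
    unfold w1
    rw [div_eq_div_iff hxy (mul_ne_zero hX hY)]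
    field_simp
    ring

theorem cij {x y : ℝ} (hx : 0 < x) (hy : 0 < y) :
    (1 / 4 - x * y * dd1 w1 w2 x y / 2)
      ≤ Real.sqrt (1 / 4 - x ^ 2 * w2 x / 2) * Real.sqrt (1 / 4 - y ^ 2 * w2 y / 2) := by
  have hX := X_pos hx
  have hY := X_pos hy
  have e : 1 / 4 - x * y * dd1 w1 w2 x y / 2 =
      1 / 4 + 923 / 800 * ((x / (1 + 13 / 4 * x)) * (y / (1 + 13 / 4 * y))) := by
    rw [dd_eq hx hy]
    field_simp
    ring
  rw [← Real.sqrt_mul (c_pos hx).le, e, c_eq hx, c_eq hy]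
  apply Real.le_sqrt_of_sq_le
  set p := x / (1 + 13 / 4 * x)
  set q := y / (1 + 13 / 4 * y)
  nlinarith [sq_nonneg (p - q)]

theorem log_17 : Real.log (17 / 4) ≤ 29 / 20 := by
  rw [Real.log_le_iff_le_exp (by norm_num)]
  have h1 := Real.exp_one_gt_d9
  have h2 : (1 : ℝ) + 3 / 20 + (3 / 20) ^ 2 / 2 ≤ Real.exp (3 / 20) :=
    Real.quadratic_le_exp_of_nonneg (by norm_num)
  have h3 : Real.exp (29 / 20) = Real.exp 1 * Real.exp (3 / 20) ^ 3 := by
    rw [← Real.exp_nat_mul, ← Real.exp_add]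
    norm_num
  rw [h3]
  have h4 : (1161 / 1000 : ℝ) ^ 3 ≤ Real.exp (3 / 20) ^ 3 :=
    pow_le_pow_left₀ (by norm_num) (by norm_num at h2 ⊢; linarith) 3
  calc (17 / 4 : ℝ) ≤ 2.7182818 * (1161 / 1000 : ℝ) ^ 3 := by norm_num
    _ ≤ Real.exp 1 * Real.exp (3 / 20) ^ 3 :=
        mul_le_mul (by linarith) h4 (by positivity) (Real.exp_pos _).le

theorem log_2pi : 36672 / 20000 ≤ Real.log (2 * Real.pi) := by
  have hpi := Real.pi_gt_d2
  rw [Real.le_log_iff_exp_le (by positivity)]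
  have h1 := Real.exp_one_lt_d9
  have h2 : (1 : ℝ) + 1664 / 10000 + (1664 / 10000) ^ 2 / 2 ≤ Real.exp (1664 / 10000) :=
    Real.quadratic_le_exp_of_nonneg (by norm_num)
  have h3 : Real.exp (36672 / 20000) * Real.exp (1664 / 10000) = Real.exp 1 ^ 2 := by
    rw [← Real.exp_nat_mul, ← Real.exp_add]
    norm_num
  have h4 : Real.exp 1 ^ 2 ≤ 2.7182818286 ^ 2 :=
    pow_le_pow_left₀ (Real.exp_pos _).le h1.le 2
  have h5 : Real.exp (36672 / 20000) * (118 / 100) ≤ 2.7182818286 ^ 2 := by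
    refine le_trans ?_ h4
    rw [← h3]
    refine mul_le_mul_of_nonneg_left ?_ (Real.exp_pos _).le
    norm_num at h2 ⊢
    linarith
  norm_num at h5
  linarith

theorem w_le {x : ℝ} (hx : x ∈ Ioo (0 : ℝ) 1) :
    w x ≤ 1 / 2 * Real.log (2 * Real.pi * Real.exp 1) - 1 := by
  obtain ⟨hx0, hx1⟩ := hx
  have hX := X_pos hx0
  have h1 : Real.log (1 + 13 / 4 * x) ≤ Real.log (17 / 4) :=
    Real.log_le_log hX (by linarith)
  have h2 := log_17
  have h3 := log_2pi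
  have h4 : Real.log (2 * Real.pi * Real.exp 1) = Real.log (2 * Real.pi) + 1 := by
    rw [Real.log_mul (by positivity) (Real.exp_pos _).ne', Real.log_exp]
  rw [h4, w]
  linarith

end W683

/-- **(S3w)** the one-variable data of the static method with loss `19/100`. -/
def wp : WP (19 / 100) kst where
  w := W683.w
  w1 := W683.w1
  w2 := W683.w2
  d1 := fun _ hx => W683.d1 hx.1
  d2 := fun _ hx => W683.d2 hx.1
  ode := fun _ hx => W683.ode hx
  c_pos := fun _ hx => W683.c_pos hx.1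
  w_ge := fun x hx => by
    have h1 : 0 ≤ Real.log (1 + 13 / 4 * x) := Real.log_nonneg (by linarith [hx.1])
    have h2 := hx.1
    rw [W683.w]
    linarith
  w_le := fun _ hx => W683.w_le hx
  cij := fun _ hx _ hy => W683.cij hx.1 hy.1

end

end Vale.Agent.P254.St625
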