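import Vale.Agent.P254.St625.Def0
import Vale.Agent.P254.St625.Z1

/-!
P254, static method, S3w: the one-variable data `WP (19/100) kst` (helper979).
-/

namespace Vale.Agent.P254.St625.W979

open Set Vale.Agent.P254.L

/-- `w` -/
noncomputable def wf (x : ℝ) : ℝ := 29 / 100 * x + 71 / 325 * Real.log (1 + 13 / 4 * x) - 19 / 100

/-- `w'` -/
noncomputable def wf1 (x : ℝ) : ℝ := 29 / 100 + 71 / 100 / (1 + 13 / 4 * x)

/-- `w''` -/
noncomputable def wf2 (x : ℝ) : ℝ := -(923 / 400) / (1 + 13 / 4 * x) ^ 2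

theorem u_pos {x : ℝ} (hx : 0 < x) : 0 < 1 + 13 / 4 * x := by positivity

theorem wf_d1 {x : ℝ} (hx : 0 < x) : HasDerivAt wf (wf1 x) x := by
  have hu := u_pos hx
  have h1 : HasDerivAt (fun y : ℝ => 1 + 13 / 4 * y) (13 / 4) x := by
    simpa using ((hasDerivAt_id x).const_mul (13 / 4 : ℝ)).const_add 1
  have h2 := (h1.log hu.ne').const_mul (71 / 325 : ℝ)
  have h3 := ((hasDerivAt_id x).const_mul (29 / 100 : ℝ))
  have h4 := (h3.add h2).sub_const (19 / 100 : ℝ)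
  refine h4.congr_deriv ?_
  unfold wf1
  field_simp
  ring

theorem wf_d2 {x : ℝ} (hx : 0 < x) : HasDerivAt wf1 (wf2 x) x := by
  have hu := u_pos hx
  have h1 : HasDerivAt (fun y : ℝ => 1 + 13 / 4 * y) (13 / 4) x := by
    simpa using ((hasDerivAt_id x).const_mul (13 / 4 : ℝ)).const_add 1
  have h2 := ((hasDerivAt_const x (71 / 100 : ℝ)).div h1 hu.ne').const_add (29 / 100 : ℝ)
  refine h2.congr_deriv ?_
  unfold wf2
  field_simp
  ring

theorem c_eq {x : ℝ} (hx : 0 < x) :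
    1 / 4 - x ^ 2 * wf2 x / 2 = 1 / 4 + 923 / 800 * (x / (1 + 13 / 4 * x)) ^ 2 := by
  have hu := u_pos hx
  unfold wf2
  field_simp
  ring

theorem cxy_eq {x y : ℝ} (hx : 0 < x) (hy : 0 < y) :
    1 / 4 - x * y * dd1 wf1 wf2 x y / 2 =
      1 / 4 + 923 / 800 * (x / (1 + 13 / 4 * x)) * (y / (1 + 13 / 4 * y)) := by
  have hu := u_pos hx
  have hv := u_pos hy
  unfold dd1
  split_ifs with h
  · subst h
    unfold wf2
    field_simp
    ring
  · have hxy : x - y ≠ 0 := sub_ne_zero.2 h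
    have h1 : (wf1 x - wf1 y) / (x - y) =
        -(923 / 400) / ((1 + 13 / 4 * x) * (1 + 13 / 4 * y)) := by
      rw [div_eq_div_iff hxy (mul_pos hu hv).ne']
      unfold wf1
      field_simp
      ring
    rw [h1]
    field_simp
    ring

theorem ode_poly {t : ℝ} (h0 : 0 ≤ t) (h1 : t ≤ 1) :
    2 * (1 + 13 / 4 * ((t ^ 2 + t) / 2)) ^ 2 + 923 / 100 * ((t ^ 2 + t) / 2) ^ 2 ≤
      (29 / 100 * (1 + 13 / 4 * ((t ^ 2 + t) / 2)) ^ 2 +
        71 / 100 * (1 + 13 / 4 * ((t ^ 2 + t) / 2))) * (1 + t) * (2 + t) := by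
  have hs : 0 ≤ 1 - t := by linarith
  have key : 4 * ((29 / 100 * (1 + 13 / 4 * ((t ^ 2 + t) / 2)) ^ 2 +
        71 / 100 * (1 + 13 / 4 * ((t ^ 2 + t) / 2))) * (1 + t) * (2 + t) -
      (2 * (1 + 13 / 4 * ((t ^ 2 + t) / 2)) ^ 2 + 923 / 100 * ((t ^ 2 + t) / 2) ^ 2)) =
      t * (277 / 100 * (1 - t) ^ 8 + 8 * (2857 / 1280) * t * (1 - t) ^ 7 +
        28 * (66729 / 44800) * t ^ 2 * (1 - t) ^ 6 + 56 * (57553 / 89600) * t ^ 3 * (1 - t) ^ 5 +
        70 * (209 / 22400) * t ^ 4 * (1 - t) ^ 4 + 56 * (2339 / 12800) * t ^ 5 * (1 - t) ^ 3 +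
        28 * (46659 / 22400) * t ^ 6 * (1 - t) ^ 2 + 8 * (22443 / 3200) * t ^ 7 * (1 - t) +
        3343 / 200 * t ^ 8) := by
    ring
  have hpos : 0 ≤ t * (277 / 100 * (1 - t) ^ 8 + 8 * (2857 / 1280) * t * (1 - t) ^ 7 +
        28 * (66729 / 44800) * t ^ 2 * (1 - t) ^ 6 + 56 * (57553 / 89600) * t ^ 3 * (1 - t) ^ 5 +
        70 * (209 / 22400) * t ^ 4 * (1 - t) ^ 4 + 56 * (2339 / 12800) * t ^ 5 * (1 - t) ^ 3 +
        28 * (46659 / 22400) * t ^ 6 * (1 - t) ^ 2 + 8 * (22443 / 3200) * t ^ 7 * (1 - t) +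
        3343 / 200 * t ^ 8) := by
    positivity
  linarith

theorem ode_le {x : ℝ} (h0 : 0 < x) (h1 : x < 1) :
    (1 / 4 - x ^ 2 * wf2 x / 2) * kst x ≤ wf1 x * (1 - x) := by
  obtain ⟨t, ht⟩ : ∃ t : ℝ, t = (Real.sqrt (1 + 8 * x) - 1) / 2 := ⟨_, rfl⟩
  have hs : Real.sqrt (1 + 8 * x) = 1 + 2 * t := by rw [ht]; ring
  have hs0 : 1 < Real.sqrt (1 + 8 * x) := by
    rw [Real.lt_sqrt (by norm_num)]; linarith
  have hs3 : Real.sqrt (1 + 8 * x) < 3 := by
    rw [Real.sqrt_lt' (by norm_num)]; linarith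
  have ht0 : 0 < t := by linarith
  have ht1 : t < 1 := by linarith
  have hx : x = (t ^ 2 + t) / 2 := by
    have h2 := Real.sq_sqrt (show 0 ≤ 1 + 8 * x by linarith)
    rw [hs] at h2
    nlinarith
  have hk : kst x = 4 * (1 - t) / (1 + t) := by
    unfold kst yy
    rw [hs, hx]
    field_simp
    ring
  rw [c_eq h0, hk]
  have hu := u_pos h0
  obtain ⟨u, hu'⟩ : ∃ u : ℝ, u = 1 + 13 / 4 * x := ⟨_, rfl⟩
  have hupos : 0 < u := by rw [hu']; exact hu
  unfold wf1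
  rw [← hu']
  have h1x : 1 - x = (1 - t) * (2 + t) / 2 := by rw [hx]; ring
  have hp := ode_poly ht0.le ht1.le
  rw [← hx, ← hu'] at hp
  rw [h1x]
  have e1 : (1 / 4 + 923 / 800 * (x / u) ^ 2) * (4 * (1 - t) / (1 + t)) =
      (1 - t) * (2 * u ^ 2 + 923 / 100 * x ^ 2) / (2 * (1 + t) * u ^ 2) := by
    field_simp
    ring
  have e2 : (29 / 100 + 71 / 100 / u) * ((1 - t) * (2 + t) / 2) =
      (1 - t) * ((29 / 100 * u ^ 2 + 71 / 100 * u) * (1 + t) * (2 + t)) /
        (2 * (1 + t) * u ^ 2) := by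
    field_simp
  rw [e1, e2]
  exact div_le_div_of_nonneg_right (mul_le_mul_of_nonneg_left hp (by linarith)) (by positivity)

theorem num_log : 71 / 325 * Real.log (17 / 4) + 3 / 5 ≤ 1 / 2 * Real.log (2 * Real.pi) := by
  have hl2 : 0.6931471803 < Real.log 2 := Real.log_two_gt_d9
  have hl2' : Real.log 2 < 0.6931471808 := Real.log_two_lt_d9
  have h1 : Real.log (17 / 4) ≤ 2 * Real.log 2 + 1 / 16 := by
    have e : (17 / 4 : ℝ) = 2 ^ 2 * (17 / 16) := by norm_num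
    rw [e, Real.log_mul (by norm_num) (by norm_num), Real.log_pow]
    have := Real.log_le_sub_one_of_pos (show (0 : ℝ) < 17 / 16 by norm_num)
    push_cast
    linarith
  have h2 : 3 * Real.log 2 - 8 * (3 / 100 + 3 / 4000) ≤ Real.log (2 * Real.pi) := by
    have hpi := Real.pi_gt_d2
    have h3 : Real.log (628 / 100) ≤ Real.log (2 * Real.pi) :=
      Real.log_le_log (by norm_num) (by linarith)
    have h4 : Real.log 8 - Real.log ((4123 / 4000) ^ 8) ≤ Real.log (628 / 100) := by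
      rw [← Real.log_div (by norm_num) (by norm_num)]
      refine Real.log_le_log (by norm_num) ?_
      norm_num
    have h5 : Real.log ((4123 / 4000 : ℝ) ^ 8) ≤ 8 * (123 / 4000) := by
      rw [Real.log_pow]
      have := Real.log_le_sub_one_of_pos (show (0 : ℝ) < 4123 / 4000 by norm_num)
      push_cast
      linarith
    have h6 : Real.log (8 : ℝ) = 3 * Real.log 2 := by
      rw [show (8 : ℝ) = 2 ^ 3 by norm_num, Real.log_pow]
      push_cast
      ring
    linarith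
  linarith

/-- **S3w**: the one-variable data. -/
noncomputable def W : WP (19 / 100) kst where
  w := wf
  w1 := wf1
  w2 := wf2
  d1 := fun _ hx => wf_d1 hx.1
  d2 := fun _ hx => wf_d2 hx.1
  ode := fun _ hx => ode_le hx.1 hx.2
  c_pos := fun x hx => by
    rw [c_eq hx.1]
    positivity
  w_ge := fun x hx => by
    have hx0 := hx.1
    have h1 : 0 ≤ Real.log (1 + 13 / 4 * x) := Real.log_nonneg (by nlinarith)
    unfold wf
    nlinarith
  w_le := fun x hx => by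
    have hx0 := hx.1
    have hx1 := hx.2
    have h1 : Real.log (1 + 13 / 4 * x) ≤ Real.log (17 / 4) :=
      Real.log_le_log (u_pos hx0) (by linarith)
    have h2 := num_log
    have h3 : Real.log (2 * Real.pi * Real.exp 1) = Real.log (2 * Real.pi) + 1 := by
      rw [Real.log_mul (by positivity) (Real.exp_pos _).ne', Real.log_exp]
    rw [h3]
    unfold wf
    linarith
  cij := fun x hx y hy => by
    rw [cxy_eq hx.1 hy.1, c_eq hx.1, c_eq hy.1, ← Real.sqrt_mul (by positivity)]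
    refine Real.le_sqrt_of_sq_le ?_
    nlinarith [sq_nonneg (x / (1 + 13 / 4 * x) - y / (1 + 13 / 4 * y))]

end Vale.Agent.P254.St625.W979
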