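import Vale.Agent.P254.St625.Z1

/-! P254, static method: the contact computation (copy of `Z546/Contact` for `WP`). -/

namespace Vale.Agent.P254.St625

open Matrix Polynomial Filter Topology Asymptotics Set
open Vale.Agent.P254.L Vale.Agent.P254.S526
open Vale.Agent.P254.Z546 hiding g1 g2 hasDerivAt_ft hasDerivAt_g1 dd1_g contact_c contact_f contact_ineq

variable {n : ℕ}

/-- derivative of `ft` -/
noncomputable def g1 {δ : ℝ} {k : ℝ → ℝ} (W : WP δ k) (ε x : ℝ) : ℝ :=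
  W.w1 x + ε * e1 x + 1 / 2 * x⁻¹
/-- second derivative of `ft` -/
noncomputable def g2 {δ : ℝ} {k : ℝ → ℝ} (W : WP δ k) (ε x : ℝ) : ℝ :=
  W.w2 x + ε * e2 x + 1 / 2 * (-(x ^ 2)⁻¹)

theorem hasDerivAt_ft {δ : ℝ} {k : ℝ → ℝ} (W : WP δ k) (ε : ℝ) {x : ℝ} (hx : x ∈ Ioo (0 : ℝ) 1) :
    HasDerivAt (ft W ε) (g1 W ε x) x := by
  have h := ((W.d1 x hx).sub ((hasDerivAt_sqrt' hx.2).const_mul ε)).add
    ((Real.hasDerivAt_log hx.1.ne').const_mul (1 / 2))
  refine h.congr_deriv ?_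
  unfold g1
  ring

theorem hasDerivAt_g1 {δ : ℝ} {k : ℝ → ℝ} (W : WP δ k) (ε : ℝ) {x : ℝ} (hx : x ∈ Ioo (0 : ℝ) 1) :
    HasDerivAt (g1 W ε) (g2 W ε x) x := by
  have h := ((W.d2 x hx).add ((hasDerivAt_e1 hx.2).const_mul ε)).add
    ((hasDerivAt_inv hx.1.ne').const_mul (1 / 2))
  exact h

theorem dd1_g {δ : ℝ} {k : ℝ → ℝ} (W : WP δ k) (ε : ℝ) {x y : ℝ} (hx : x ∈ Ioo (0 : ℝ) 1)
    (hy : y ∈ Ioo (0 : ℝ) 1) :
    x * y * dd1 (g1 W ε) (g2 W ε) x y
      = x * y * dd1 W.w1 W.w2 x y + ε * (x * y * dd1 e1 e2 x y) - 1 / 2 := by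
  have hx0 := hx.1.ne'
  have hy0 := hy.1.ne'
  unfold dd1
  split_ifs with h
  · subst h
    unfold g2
    field_simp
    ring
  · have h1 : x - y ≠ 0 := sub_ne_zero.2 h
    unfold g1
    field_simp
    ring

/-! ### the contact computation -/

section
variable {δ : ℝ} {k : ℝ → ℝ} {D : TiltData n} (E : EntData D) (W : WP δ k) {ε : ℝ}

/-- (i) the second order test in the direction of the row `a` of the frame -/
theorem contact_c {B : Mat n} (hB : B.PosDef) {c : Vec n} {L : Mat n} {β : Vec n}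
    (h : Fr (D.A B c) B L β) (a : Fin n)
    (hc : ∀ᶠ t in 𝓝 (0 : ℝ), GG E W ε B c ≤ GG E W ε B (c + t • (fun k => L a k))) :
    0 ≤ 1 / 2 * (∑ i, ∑ j, E.Xi B c i j * L a i * L a j)
      - (1 / 2 * ∑ i, g1 W ε (β i) * (β i * (L * KK L (D.K B c) a * Lᵀ) i i)
        + 1 / 2 * ∑ i, ∑ j, dd1 (g1 W ε) (g2 W ε) (β i) (β j) * (β i * frT L (D.T B c) i j a)
            * (β j * frT L (D.T B c) j i a)) := by
  have hβ : ∀ i, β i ∈ Ioo (0 : ℝ) 1 := h.beta_mem hB c
  have hsy : ∀ c, (D.A B c)ᵀ = D.A B c := fun c => by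
    ext i j; rw [Matrix.transpose_apply]; exact D.A_symm B c j i
  set e : Vec n := fun k => L a k with he
  have hA : ∀ i j, J2 (𝓝 0) (fun t : ℝ => D.A B (c + t • e) i j) (D.A B c i j)
      ((Matrix.of fun i j => ∑ k, L a k * D.T B c i j k) i j)
      (((1 / 2 : ℝ) • KK L (D.K B c) a) i j) := by
    intro i j
    have h1 := J2.of_hasDerivAt (f := fun t : ℝ => D.A B (c + t • e) i j)
      (f' := fun t => ∑ k, e k * D.T B (c + t • e) i j k)
      (f2 := ∑ k, e k * ∑ l, e l * D.K B (c + (0 : ℝ) • e) i j k l)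
      (Eventually.of_forall fun t => D.dA B hB.posSemidef c e i j t)
      (by
        have h2 := HasDerivAt.fun_sum (u := Finset.univ) (fun k _ =>
          (D.dT B hB.posSemidef c e i j k 0).const_mul (e k))
        exact h2)
    simp only [zero_smul, add_zero] at h1
    refine h1.congr_coef rfl rfl ?_
    simp only [Matrix.smul_apply, KK, Matrix.of_apply, smul_eq_mul, he]
    ring
  have hPhi := phi_jet2 h (hsy c) hA (Eventually.of_forall fun t =>
    ⟨hsy _, exists_Fr (D.posA B hB.posSemidef _) hB.isHermitian⟩) (f := ft W ε) (f1 := g1 W ε)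
    (f2 := g2 W ε) (fun i => ev_nhds (hβ i) fun x hx => hasDerivAt_ft W ε hx)
    (fun i => hasDerivAt_g1 W ε (hβ i))
  have hE : J2 (𝓝 0) (fun t : ℝ => E.Ent B (c + t • e)) (E.Ent B c) (∑ i, E.g B c i * e i)
      (1 / 2 * ∑ i, ∑ j, E.Xi B c i j * e i * e j) := by
    refine (E.dE B hB.posSemidef c e).congr_left fun t => ?_
    ring
  have hG := ((((hE.add (J2.const (1 / 2 * Real.log B.det))).sub (J2.const (n : ℝ))).sub
      hPhi).neg).congr (g := fun t : ℝ => - GG E W ε B (c + t • e)) (a' := - GG E W ε B c)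
      (Eventually.of_forall fun t => by unfold GG; rfl) (by unfold GG; rw [Phi_eq h]) rfl rfl
  have h3 := (hG.le_test (by filter_upwards [hc] with t ht; linarith)).2
  simp only [conj_TT, Matrix.mul_smul, Matrix.smul_mul, Matrix.smul_apply, smul_eq_mul] at h3
  have h4 : ∑ i, g1 W ε (β i) * (β i * (1 / 2 * (L * KK L (D.K B c) a * Lᵀ) i i))
      = 1 / 2 * ∑ i, g1 W ε (β i) * (β i * (L * KK L (D.K B c) a * Lᵀ) i i) := by
    rw [Finset.mul_sum]
    exact Finset.sum_congr rfl fun i _ => by ring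
  rw [h4] at h3
  linarith

/-- (ii) the first order test along the flow with the control `Q = Lᵀ diag r L` -/
theorem contact_f {B : Mat n} (hB : B.PosDef) {c : Vec n} {L : Mat n} {β : Vec n}
    (h : Fr (D.A B c) B L β) {r : Vec n} (hr : ∀ i, 0 ≤ r i)
    (hc : ∀ᶠ t in 𝓝[≥] (0 : ℝ), GG E W ε B c ≤
      GG E W ε (B + t • (Lᵀ * Matrix.diagonal r * L))
        (c + t • ((Lᵀ * Matrix.diagonal r * L) *ᵥ D.mu B c))) :
    0 ≤ -(1 / 2) * (∑ a, r a * (1 + ∑ i, ∑ j, E.Xi B c i j * L a i * L a j))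
      + 1 / 2 * ∑ i, r i / β i
      - ∑ i, g1 W ε (β i) * (r i * (1 - β i)
        - 1 / 2 * (β i * ∑ a, r a * (L * KK L (D.K B c) a * Lᵀ) i i)) := by
  have hβ : ∀ i, β i ∈ Ioo (0 : ℝ) 1 := h.beta_mem hB c
  have hsy : ∀ B c, (D.A B c)ᵀ = D.A B c := fun B c => by
    ext i j; rw [Matrix.transpose_apply]; exact D.A_symm B c j i
  have hdr : (Matrix.diagonal r : Mat n).PosSemidef := by
    rw [Matrix.posSemidef_diagonal_iff]; exact hr
  set Q : Mat n := Lᵀ * Matrix.diagonal r * L with hQ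
  have hQp : Q.PosSemidef := (psd_conj_iff h.isUnit).2 hdr
  have hl : 𝓝[≥] (0 : ℝ) ≤ 𝓝 0 := nhdsWithin_le_nhds
  have hQe : ∀ k l, Q k l = ∑ a, r a * (L a k * L a l) := by
    intro k l
    rw [hQ, Matrix.mul_apply]
    refine Finset.sum_congr rfl fun a _ => ?_
    rw [Matrix.mul_diagonal, Matrix.transpose_apply]
    ring
  -- the matrix of the derivative of `A`
  set X : Mat n := -(D.A B c * Q * D.A B c)
    - (1 / 2 : ℝ) • ∑ a, r a • KK L (D.K B c) a with hX
  have hA : ∀ i j, J1 (𝓝[≥] 0) (fun t : ℝ => D.A (B + t • Q) (c + t • (Q *ᵥ D.mu B c)) i j)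
      (D.A B c i j) (X i j) := by
    intro i j
    have h1 := J1.of_hasDerivWithinAt (D.fA B hB.posSemidef c Q hQp i j)
    simp only [zero_smul, add_zero] at h1
    refine h1.congr_coef rfl ?_
    rw [hX]
    simp only [Matrix.sub_apply, Matrix.neg_apply, Matrix.smul_apply, Matrix.sum_apply, KK,
      Matrix.of_apply, smul_eq_mul]
    congr 2
    simp only [hQe, Finset.sum_mul, Finset.mul_sum]
    have e1 : ∀ k, ∑ l, ∑ a, r a * (L a k * L a l) * D.K B c i j k l
        = ∑ a, ∑ l, r a * (L a k * L a l) * D.K B c i j k l := fun k => Finset.sum_comm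
    simp only [e1]
    rw [Finset.sum_comm]
    refine Finset.sum_congr rfl fun a _ => Finset.sum_congr rfl fun k _ =>
      Finset.sum_congr rfl fun l _ => ?_
    ring
  have hpd : ∀ t : ℝ, 0 ≤ t → (B + t • Q).PosDef := fun t ht =>
    hB.add_posSemidef (hQp.smul ht)
  have hPhi := phi_jet1 hl h (hsy B c) hA (r := r) (by
    filter_upwards [self_mem_nhdsWithin] with t ht
    exact ⟨hsy _ _, exists_Fr (D.posA _ (hpd t ht).posSemidef _) (hpd t ht).isHermitian⟩)
    (f := ft W ε) (f1 := g1 W ε)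
    (f2 := g2 W ε) (fun i => ev_nhds (hβ i) fun x hx => hasDerivAt_ft W ε hx)
    (fun i => hasDerivAt_g1 W ε (hβ i))
  have hdet := logdet_jet1 hl h (r := r) (fun i => (hβ i).1)
  have hE := J1.of_hasDerivWithinAt (E.fE B hB.posSemidef c Q hQp)
  simp only [zero_smul, add_zero] at hE
  have hG := ((((hE.add (hdet.const_mul (1 / 2))).sub (J1.const (n : ℝ))).sub
      hPhi).neg).congr
      (g := fun t : ℝ => - GG E W ε (B + t • Q) (c + t • (Q *ᵥ D.mu B c)))
      (a' := - GG E W ε B c)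
      (Eventually.of_forall fun t => by unfold GG; rfl) (by unfold GG; rw [Phi_eq h]) rfl
  have h3 := hG.le_test (by filter_upwards [hc] with t ht; linarith)
  have hLX : ∀ i, (L * X * Lᵀ) i i
      = - r i - 1 / 2 * ∑ a, r a * (L * KK L (D.K B c) a * Lᵀ) i i := by
    intro i
    have e1 : L * (D.A B c * Q * D.A B c) * Lᵀ = Matrix.diagonal r := by
      rw [hQ]
      calc L * (D.A B c * (Lᵀ * Matrix.diagonal r * L) * D.A B c) * Lᵀ
          = (L * D.A B c * Lᵀ) * Matrix.diagonal r * (L * D.A B c * Lᵀ) := by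
            simp only [Matrix.mul_assoc]
        _ = _ := by rw [h.hA, Matrix.one_mul, Matrix.mul_one]
    rw [hX, Matrix.mul_sub, Matrix.sub_mul, Matrix.mul_neg, Matrix.neg_mul, e1]
    simp only [Matrix.sub_apply, Matrix.neg_apply, Matrix.diagonal_apply_eq, Matrix.mul_smul,
      Matrix.smul_mul, Matrix.smul_apply, Matrix.mul_sum, Matrix.sum_mul, Matrix.sum_apply,
      smul_eq_mul]
  have htr : (Q * D.A B c).trace = ∑ a, r a := by
    have e1 : Q * D.A B c = Lᵀ * (Matrix.diagonal r * (L * D.A B c)) := by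
      rw [hQ]; simp only [Matrix.mul_assoc]
    rw [e1, Matrix.trace_mul_comm, Matrix.mul_assoc, h.hA, Matrix.mul_one,
      Matrix.trace_diagonal]
  have hXi : ∑ i, ∑ j, Q i j * E.Xi B c i j
      = ∑ a, r a * ∑ i, ∑ j, E.Xi B c i j * L a i * L a j := by
    simp only [hQe, Finset.sum_mul, Finset.mul_sum]
    have e1 : ∀ k, ∑ l, ∑ a, r a * (L a k * L a l) * E.Xi B c k l
        = ∑ a, ∑ l, r a * (L a k * L a l) * E.Xi B c k l := fun k => Finset.sum_comm
    simp only [e1]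
    rw [Finset.sum_comm]
    refine Finset.sum_congr rfl fun a _ => Finset.sum_congr rfl fun k _ =>
      Finset.sum_congr rfl fun l _ => ?_
    ring
  rw [htr, hXi, ← Finset.sum_add_distrib] at h3
  have h5 : ∑ a, (r a + r a * ∑ i, ∑ j, E.Xi B c i j * L a i * L a j)
      = ∑ a, r a * (1 + ∑ i, ∑ j, E.Xi B c i j * L a i * L a j) :=
    Finset.sum_congr rfl fun a _ => by ring
  have h6 : ∑ i, g1 W ε (β i) * (r i + β i * (L * X * Lᵀ) i i)
      = ∑ i, g1 W ε (β i) * (r i * (1 - β i)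
        - 1 / 2 * (β i * ∑ a, r a * (L * KK L (D.K B c) a * Lᵀ) i i)) :=
    Finset.sum_congr rfl fun i _ => by rw [hLX]; ring
  rw [h5, h6] at h3
  linarith

/-- the contact inequality: `(i)` and `(ii)` together -/
theorem contact_ineq {B : Mat n} (hB : B.PosDef) {c : Vec n} {L : Mat n} {β : Vec n}
    (h : Fr (D.A B c) B L β) {r : Vec n} (hr : ∀ i, 0 ≤ r i)
    (hc : ∀ e : Vec n, ∀ᶠ t in 𝓝 (0 : ℝ), GG E W ε B c ≤ GG E W ε B (c + t • e))
    (hf : ∀ᶠ t in 𝓝[≥] (0 : ℝ), GG E W ε B c ≤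
      GG E W ε (B + t • (Lᵀ * Matrix.diagonal r * L))
        (c + t • ((Lᵀ * Matrix.diagonal r * L) *ᵥ D.mu B c))) :
    0 ≤ ∑ a, r a * (∑ i, ∑ j, (1 / 2 * (1 / 2 - β i * β j * dd1 W.w1 W.w2 (β i) (β j)
        - ε * (β i * β j * dd1 e1 e2 (β i) (β j))))
          * frT L (D.T B c) i j a ^ 2
      - (W.w1 (β a) + ε * e1 (β a)) * (1 - β a)) := by
  have hβ : ∀ i, β i ∈ Ioo (0 : ℝ) 1 := h.beta_mem hB c
  have h1 : ∀ a, 0 ≤ r a * _ := fun a => mul_nonneg (hr a) (contact_c E W hB h a (hc _))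
  have h2 := Finset.sum_nonneg (s := Finset.univ) fun a _ => h1 a
  have h3 := contact_f E W hB h hr hf
  have hTs : ∀ i j a, frT L (D.T B c) j i a = frT L (D.T B c) i j a := by
    intro i j a
    unfold frT
    rw [Finset.sum_comm]
    refine Finset.sum_congr rfl fun p _ => Finset.sum_congr rfl fun q _ =>
      Finset.sum_congr rfl fun k _ => ?_
    rw [(D.T_symm B c).1 q p k]
    ring
  have h4 := add_nonneg h2 h3
  refine h4.trans_eq ?_
  -- abbreviations
  have hK : ∑ a, r a * ∑ i, g1 W ε (β i) * (β i * (L * KK L (D.K B c) a * Lᵀ) i i)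
      = ∑ i, g1 W ε (β i) * (β i * ∑ a, r a * (L * KK L (D.K B c) a * Lᵀ) i i) := by
    simp only [Finset.mul_sum]
    rw [Finset.sum_comm]
    exact Finset.sum_congr rfl fun i _ => Finset.sum_congr rfl fun a _ => by ring
  have e1 : ∑ a, r a * (1 / 2 * (∑ i, ∑ j, E.Xi B c i j * L a i * L a j)
      - (1 / 2 * ∑ i, g1 W ε (β i) * (β i * (L * KK L (D.K B c) a * Lᵀ) i i)
        + 1 / 2 * ∑ i, ∑ j, dd1 (g1 W ε) (g2 W ε) (β i) (β j) * (β i * frT L (D.T B c) i j a)
            * (β j * frT L (D.T B c) j i a)))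
      = 1 / 2 * (∑ a, r a * ∑ i, ∑ j, E.Xi B c i j * L a i * L a j)
        - 1 / 2 * (∑ a, r a * ∑ i, g1 W ε (β i) * (β i * (L * KK L (D.K B c) a * Lᵀ) i i))
        - 1 / 2 * ∑ a, r a * ∑ i, ∑ j, dd1 (g1 W ε) (g2 W ε) (β i) (β j)
            * (β i * frT L (D.T B c) i j a) * (β j * frT L (D.T B c) j i a) := by
    rw [Finset.mul_sum Finset.univ _ (1 / 2 : ℝ), Finset.mul_sum Finset.univ _ (1 / 2 : ℝ),
      Finset.mul_sum Finset.univ _ (1 / 2 : ℝ), ← Finset.sum_sub_distrib,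
      ← Finset.sum_sub_distrib]
    exact Finset.sum_congr rfl fun a _ => by ring
  have e2 : ∑ i, g1 W ε (β i) * (r i * (1 - β i)
        - 1 / 2 * (β i * ∑ a, r a * (L * KK L (D.K B c) a * Lᵀ) i i))
      = ∑ i, g1 W ε (β i) * (r i * (1 - β i))
        - 1 / 2 * ∑ i, g1 W ε (β i) * (β i * ∑ a, r a * (L * KK L (D.K B c) a * Lᵀ) i i) := by
    rw [Finset.mul_sum Finset.univ _ (1 / 2 : ℝ), ← Finset.sum_sub_distrib]
    exact Finset.sum_congr rfl fun i _ => by ring
  have e3 : ∑ a, r a * (1 + ∑ i, ∑ j, E.Xi B c i j * L a i * L a j)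
      = ∑ a, r a + ∑ a, r a * ∑ i, ∑ j, E.Xi B c i j * L a i * L a j := by
    rw [← Finset.sum_add_distrib]
    exact Finset.sum_congr rfl fun a _ => by ring
  rw [e1, e2, e3, hK]
  have e4 : ∑ a, r a * (∑ i, ∑ j, (1 / 2 * (1 / 2 - β i * β j * dd1 W.w1 W.w2 (β i) (β j)
        - ε * (β i * β j * dd1 Z546.e1 Z546.e2 (β i) (β j))))
          * frT L (D.T B c) i j a ^ 2
      - (W.w1 (β a) + ε * Z546.e1 (β a)) * (1 - β a))
      = - (1 / 2 * ∑ a, r a * ∑ i, ∑ j, dd1 (g1 W ε) (g2 W ε) (β i) (β j)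
            * (β i * frT L (D.T B c) i j a) * (β j * frT L (D.T B c) j i a))
        + (1 / 2 * ∑ i, r i / β i - 1 / 2 * ∑ a, r a
          - ∑ i, g1 W ε (β i) * (r i * (1 - β i))) := by
    rw [Finset.mul_sum Finset.univ _ (1 / 2 : ℝ), Finset.mul_sum Finset.univ _ (1 / 2 : ℝ),
      Finset.mul_sum Finset.univ _ (1 / 2 : ℝ), ← Finset.sum_sub_distrib,
      ← Finset.sum_sub_distrib, ← Finset.sum_neg_distrib, ← Finset.sum_add_distrib]
    refine Finset.sum_congr rfl fun a _ => ?_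
    have e5 : ∑ i, ∑ j, (1 / 2 * (1 / 2 - β i * β j * dd1 W.w1 W.w2 (β i) (β j)
        - ε * (β i * β j * dd1 Z546.e1 Z546.e2 (β i) (β j))))
          * frT L (D.T B c) i j a ^ 2
        = - (1 / 2 * ∑ i, ∑ j, dd1 (g1 W ε) (g2 W ε) (β i) (β j)
            * (β i * frT L (D.T B c) i j a) * (β j * frT L (D.T B c) j i a)) := by
      rw [Finset.mul_sum, ← Finset.sum_neg_distrib]
      refine Finset.sum_congr rfl fun i _ => ?_
      rw [Finset.mul_sum, ← Finset.sum_neg_distrib]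
      refine Finset.sum_congr rfl fun j _ => ?_
      rw [hTs i j a]
      have e6 := dd1_g W ε (hβ i) (hβ j)
      have e7 : dd1 (g1 W ε) (g2 W ε) (β i) (β j) * (β i * frT L (D.T B c) i j a)
            * (β j * frT L (D.T B c) i j a)
          = (β i * β j * dd1 (g1 W ε) (g2 W ε) (β i) (β j)) * frT L (D.T B c) i j a ^ 2 := by
        ring
      rw [e7, e6]
      ring
    rw [e5]
    have hb := (hβ a).1.ne'
    unfold g1
    field_simp
    ring
  rw [e4]
  ring

end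

end Vale.Agent.P254.St625
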